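import Vale.Agent.P174.Fld.Main

/-!
# Corollaries over a field: Howie's theorem over `K`, extensions and reductions.
-/

universe u

namespace Vale.Agent.P174.Rel.Fld

open Monoid

section cor

variable (K : Type) [Field K]

/-- A group is locally indicable over `K` when every nontrivial finitely generated subgroup has a
nontrivial homomorphism to the additive group of `K`. -/
def LocIndK (G : Type u) [Group G] : Prop :=
  ∀ L : Subgroup G, L.FG → L ≠ ⊥ → ∃ φ : L →* Multiplicative K, φ ≠ 1

variable {K}

theorem LocIndK.subgroup {H : Type u} [Group H] (L₀ : Subgroup H) (hH : LocIndK K H) :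
    LocIndK K L₀ := by
  intro L hL hne
  let e : L ≃* L.map L₀.subtype := L.equivMapOfInjective L₀.subtype L₀.subtype_injective
  have hfg : (L.map L₀.subtype).FG := by
    have : Group.FG L := (Group.fg_iff_subgroup_fg L).2 hL
    exact (Group.fg_iff_subgroup_fg _).1 (Group.fg_of_surjective (f := e.toMonoidHom) e.surjective)
  have hne' : L.map L₀.subtype ≠ ⊥ := by
    intro h0
    apply hne
    exact (Subgroup.map_eq_bot_iff_of_injective L L₀.subtype_injective).1 h0
  obtain ⟨φ, hφ⟩ := hH _ hfg hne'
  refine ⟨φ.comp e.toMonoidHom, ?_⟩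
  intro h0
  apply hφ
  ext x
  have := DFunLike.congr_fun h0 (e.symm x)
  simpa using congrArg Multiplicative.toAdd this

/-- Howie's theorem over the field `K`: every `K`-nonsingular system over a free product of groups
locally indicable over `K` is solvable. -/
theorem allSolvK_locIndK (V : Type u) (A : V → Type u) [∀ v, Group (A v)]
    (hA : ∀ v, LocIndK K (A v)) : AllSolvK K (Monoid.CoprodI A) := by
  refine allSolvK_of_cl K (LocIndK K) ?_ ?_ V A hA
  · intro H _ L₀ hH
    exact hH.subgroup L₀
  · intro W B _ hCl hfg hφ _
    have htriv : ∀ v, Subsingleton (B v) := by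
      intro v
      by_contra hnon
      have hne : (⊤ : Subgroup (B v)) ≠ ⊥ := by
        intro h0
        apply hnon
        have h1 : ∀ a : B v, a = 1 := fun a => Subgroup.mem_bot.1 (h0 ▸ Subgroup.mem_top a)
        exact ⟨fun a b => by rw [h1 a, h1 b]⟩
      obtain ⟨φ, hne2⟩ := hCl v ⊤ (Group.fg_def.1 (hfg v)) hne
      let e : (⊤ : Subgroup (B v)) ≃* B v := Subgroup.topEquiv
      apply hne2
      ext x
      have := DFunLike.congr_fun (hφ v (φ.comp e.symm.toMonoidHom)) (e x)
      simpa using congrArg Multiplicative.toAdd this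
    have : Subsingleton (Monoid.CoprodI B) := by
      constructor
      have hone : ∀ g : Monoid.CoprodI B, g = 1 := by
        intro g
        induction g using Monoid.CoprodI.induction_on with
        | one => rfl
        | @of v a =>
          have := htriv v
          rw [Subsingleton.elim a 1, map_one]
        | mul a b ha hb => rw [ha, hb, one_mul]
      intro a b
      rw [hone a, hone b]
    intro n m w _
    exact Function.injective_of_subsingleton _

theorem allSolvK_of_punit {G : Type u} [Group G]
    (h : AllSolvK K (Monoid.CoprodI (fun _ : PUnit.{u + 1} => G))) : AllSolvK K G :=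
  allSolvK_of_injective (Monoid.CoprodI.of (M := fun _ : PUnit => G) (i := PUnit.unit))
    (Monoid.CoprodI.of_injective (M := fun _ : PUnit => G) _) h

/-- The conjecture over `K` reduces to finitely generated groups all of whose homomorphisms to
the additive group of `K` are trivial. -/
theorem allSolvK_of_b1 (h : ∀ (G : Type u) [Group G], Group.FG G →
    (∀ φ : G →* Multiplicative K, φ = 1) → AllSolvK K G) (G : Type u) [Group G] : AllSolvK K G := by
  have h1 := allSolvK_of_cl K (fun _ _ => True) (fun _ _ _ _ => trivial)
    (fun V A _ _ _ hφ hfg => h _ hfg (by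
      intro φ
      apply Monoid.CoprodI.ext_hom
      intro v
      exact hφ v _)) PUnit (fun _ => G) (fun _ => trivial)
  exact allSolvK_of_punit h1

/-- The conjecture over `K` passes from the free powers of `N` to any extension of `N` by a group
locally indicable over `K`. -/
theorem allSolvK_of_extension {G Q : Type u} [Group G] [Group Q] (π : G →* Q) (hQ : LocIndK K Q)
    (h : ∀ C : Type u, AllSolvK K (Monoid.CoprodI fun _ : C => π.ker)) : AllSolvK K G := by
  have h1 := allSolvK_of_cl K (fun H _ => ∃ f : H →* G, Function.Injective f)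
    (fun H _ L ⟨f, hf⟩ => ⟨f.comp L.subtype, hf.comp L.subtype_injective⟩)
    (by
      intro V A _ hCl hfg hφ _
      choose f hf using hCl
      have hker : ∀ v a, π (f v a) = 1 := by
        intro v a
        by_contra hne
        let ψ : A v →* Q := π.comp (f v)
        have hfgK : ψ.range.FG := by
          have := hfg v
          exact (Group.fg_iff_subgroup_fg _).1
            (Group.fg_of_surjective (f := ψ.rangeRestrict) ψ.rangeRestrict_surjective)
        have hneK : ψ.range ≠ ⊥ := by
          intro h0
          apply hne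
          have h2 : ψ a ∈ ψ.range := ⟨a, rfl⟩
          rw [h0] at h2
          exact Subgroup.mem_bot.1 h2
        obtain ⟨φ, hne2⟩ := hQ _ hfgK hneK
        apply hne2
        ext ⟨x, a', rfl⟩
        have h3 := DFunLike.congr_fun (hφ v (φ.comp ψ.rangeRestrict)) a'
        exact congrArg Multiplicative.toAdd h3
      let g : ∀ v, A v →* π.ker := fun v => (f v).codRestrict π.ker (fun a => hker v a)
      have hg : ∀ v, Function.Injective (g v) := by
        intro v a b hab
        exact hf v (congrArg Subtype.val hab)
      exact allSolvK_of_injective (cMap g) (cMap_injective g hg) (h V))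
    PUnit (fun _ => G) (fun _ => ⟨MonoidHom.id G, Function.injective_id⟩)
  exact allSolvK_of_punit h1

/-- The class of groups each of whose finitely generated subgroups lies in `S` or has a
nontrivial homomorphism to the additive group of `K`. -/
def LocalExtK (K : Type) [Field K] (S : (H : Type u) → [Group H] → Prop) (G : Type u) [Group G] :
    Prop :=
  ∀ L : Subgroup G, L.FG → S L ∨ ∃ φ : L →* Multiplicative K, φ ≠ 1

/-- A class of groups is good over `K` when every `K`-nonsingular system over a free product of
members of the class is solvable. -/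
def GoodClassK (K : Type) [Field K] (S : (H : Type u) → [Group H] → Prop) : Prop :=
  ∀ (C : Type u) (H : C → Type u) [∀ c, Group (H c)], (∀ c, S (H c)) →
    AllSolvK K (Monoid.CoprodI H)

variable {S : (H : Type u) → [Group H] → Prop}

theorem LocalExtK.subgroup (hiso : ∀ (H H' : Type u) [Group H] [Group H'], (H ≃* H') → S H → S H')
    {H : Type u} [Group H] (L₀ : Subgroup H) (h : LocalExtK K S H) : LocalExtK K S L₀ := by
  intro L hL
  let e : L ≃* L.map L₀.subtype := L.equivMapOfInjective L₀.subtype L₀.subtype_injective
  have hfg : (L.map L₀.subtype).FG := by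
    have : Group.FG L := (Group.fg_iff_subgroup_fg L).2 hL
    exact (Group.fg_iff_subgroup_fg _).1 (Group.fg_of_surjective (f := e.toMonoidHom) e.surjective)
  rcases h (L.map L₀.subtype) hfg with h1 | ⟨φ, hφ⟩
  · exact Or.inl (hiso _ _ e.symm h1)
  · refine Or.inr ⟨φ.comp e.toMonoidHom, ?_⟩
    intro h0
    apply hφ
    ext x
    have := DFunLike.congr_fun h0 (e.symm x)
    simpa using congrArg Multiplicative.toAdd this

theorem LocalExtK.dich (hiso : ∀ (H H' : Type u) [Group H] [Group H'], (H ≃* H') → S H → S H')
    {H : Type u} [Group H] (h : LocalExtK K S H) (hfg : Group.FG H)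
    (hφ : ∀ φ : H →* Multiplicative K, φ = 1) : S H := by
  let e : (⊤ : Subgroup H) ≃* H := Subgroup.topEquiv
  rcases h ⊤ (Group.fg_def.1 hfg) with h1 | ⟨φ, hne⟩
  · exact hiso _ _ e h1
  · exfalso
    apply hne
    ext x
    have := DFunLike.congr_fun (hφ (φ.comp e.symm.toMonoidHom)) (e x)
    simpa using congrArg Multiplicative.toAdd this

/-- The relative theorem over `K`. -/
theorem goodClassK_localExtK
    (hiso : ∀ (H H' : Type u) [Group H] [Group H'], (H ≃* H') → S H → S H')
    (hS : GoodClassK K S) : GoodClassK K (LocalExtK K S) := by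
  intro C H _ hH
  exact allSolvK_of_cl K (LocalExtK K S) (fun H _ L h => LocalExtK.subgroup hiso L h)
    (fun V A _ hCl hfg hφ _ => hS V A fun v => LocalExtK.dich hiso (hCl v) (hfg v) (hφ v)) C H hH

end cor

section primes

variable {p : ℕ} [Fact p.Prime]

/-- Locally indicable groups are locally indicable over every prime field. -/
theorem hom_zmod_of_hom_int {L : Type u} [Group L] :
    ∀ (N : ℕ) (φ : L →* Multiplicative ℤ) (x : L), (Multiplicative.toAdd (φ x)).natAbs ≤ N →
      φ x ≠ 1 → ∃ ψ : L →* Multiplicative (ZMod p), ψ ≠ 1 := by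
  intro N
  induction N using Nat.strong_induction_on with
  | _ N ih =>
    intro φ x hN hx
    let c : Multiplicative ℤ →* Multiplicative (ZMod p) :=
      AddMonoidHom.toMultiplicative (Int.castAddHom (ZMod p))
    by_cases hall : ∀ y, (p : ℤ) ∣ Multiplicative.toAdd (φ y)
    · -- divide by `p`
      let φ' : L →* Multiplicative ℤ :=
        { toFun := fun y => Multiplicative.ofAdd (Multiplicative.toAdd (φ y) / (p : ℤ))
          map_one' := by simp
          map_mul' := by
            intro a b
            have hp : ((p : ℤ) ∣ Multiplicative.toAdd (φ a)) := hall a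
            rw [map_mul, toAdd_mul, Int.add_ediv_of_dvd_left hp]
            rfl }
      have hne0 : Multiplicative.toAdd (φ x) ≠ 0 := by
        intro h0
        apply hx
        exact Multiplicative.toAdd.injective h0
      have hpos : 1 < p := (Fact.out : p.Prime).one_lt
      have hq : Multiplicative.toAdd (φ' x) = Multiplicative.toAdd (φ x) / (p : ℤ) := rfl
      obtain ⟨k, hk⟩ := hall x
      have hkne : k ≠ 0 := by
        rintro rfl
        exact hne0 (by simpa using hk)
      have hpne : (p : ℤ) ≠ 0 := by exact_mod_cast (by omega : p ≠ 0)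
      have hqk : Multiplicative.toAdd (φ' x) = k := by
        rw [hq, hk, Int.mul_ediv_cancel_left _ hpne]
      have hlt : (Multiplicative.toAdd (φ' x)).natAbs < N := by
        rw [hqk]
        have h1 : (Multiplicative.toAdd (φ x)).natAbs = p * k.natAbs := by
          rw [hk, Int.natAbs_mul, Int.natAbs_natCast]
        have h2 : 0 < k.natAbs := Int.natAbs_pos.2 hkne
        have h3 : k.natAbs < p * k.natAbs := by nlinarith
        omega
      refine ih _ hlt φ' x (le_refl _) ?_
      intro h0
      apply hkne
      rw [← hqk]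
      exact congrArg Multiplicative.toAdd h0
    · push Not at hall
      obtain ⟨y, hy⟩ := hall
      refine ⟨c.comp φ, ?_⟩
      intro h0
      apply hy
      have h1 := DFunLike.congr_fun h0 y
      have h2 : ((Multiplicative.toAdd (φ y) : ℤ) : ZMod p) = 0 := congrArg Multiplicative.toAdd h1
      exact (ZMod.intCast_zmod_eq_zero_iff_dvd _ _).1 h2

theorem locIndK_of_locInd {G : Type u} [Group G] (h : LocInd G) : LocIndK (ZMod p) G := by
  intro L hL hne
  obtain ⟨φ, hφ⟩ := h L hL hne
  have : ∃ x, φ x ≠ 1 := by
    by_contra hcon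
    push Not at hcon
    apply hφ
    ext x
    simp [hcon x]
  obtain ⟨x, hx⟩ := this
  exact hom_zmod_of_hom_int _ φ x (le_refl _) hx

/-- A nontrivial finite `p`-group has a nontrivial homomorphism to the integers modulo `p`. -/
theorem exists_hom_of_isPGroup {P : Type u} [Group P] [Finite P] (hP : IsPGroup p P)
    [Nontrivial P] : ∃ φ : P →* Multiplicative (ZMod p), φ ≠ 1 := by
  classical
  have hnil : Group.IsNilpotent P := hP.isNilpotent
  obtain ⟨M, hM, -⟩ : ∃ M : Subgroup P, IsCoatom M ∧ ⊥ ≤ M := by
    rcases eq_top_or_exists_le_coatom (⊥ : Subgroup P) with h | ⟨M, hM, hle⟩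
    · exact absurd h bot_ne_top
    · exact ⟨M, hM, hle⟩
  have hnorm : M.Normal := Subgroup.NormalizerCondition.normal_of_coatom M
    (Group.normalizerCondition_of_isNilpotent) hM
  obtain ⟨x, hx⟩ : ∃ x, x ∉ M := by
    by_contra hcon
    push Not at hcon
    exact hM.1 (eq_top_iff.2 fun x _ => hcon x)
  let y : P ⧸ M := QuotientGroup.mk x
  have hy1 : y ≠ 1 := by
    intro h
    exact hx ((QuotientGroup.eq_one_iff x).1 h)
  have hgen : ∀ z : P ⧸ M, z ∈ Subgroup.zpowers y := by
    have hcomap : (Subgroup.zpowers y).comap (QuotientGroup.mk' M) = ⊤ := by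
      apply hM.2
      refine lt_of_le_of_ne ?_ ?_
      · intro a ha
        rw [Subgroup.mem_comap]
        have : (QuotientGroup.mk' M) a = 1 := (QuotientGroup.eq_one_iff a).2 ha
        rw [this]
        exact Subgroup.one_mem _
      · intro h0
        apply hx
        rw [h0, Subgroup.mem_comap]
        exact Subgroup.mem_zpowers y
    intro z
    obtain ⟨a, rfl⟩ := QuotientGroup.mk'_surjective M z
    have : a ∈ (Subgroup.zpowers y).comap (QuotientGroup.mk' M) := by
      rw [hcomap]
      exact Subgroup.mem_top a
    exact this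
  have hpdvd : p ∣ orderOf y := (hP.to_quotient M).dvd_orderOf hy1
  let g' : Multiplicative (ZMod p) := Multiplicative.ofAdd 1
  have hg' : orderOf g' = p := by
    rw [orderOf_ofAdd_eq_addOrderOf, ZMod.addOrderOf_one]
  let f : P ⧸ M →* Multiplicative (ZMod p) :=
    monoidHomOfForallMemZpowers hgen (g' := g') (by rw [hg']; exact hpdvd)
  have hfy : f y = g' := monoidHomOfForallMemZpowers_apply_gen hgen _
  refine ⟨f.comp (QuotientGroup.mk' M), ?_⟩
  intro h0
  have h1 := DFunLike.congr_fun h0 x
  have h2 : f y = 1 := h1
  rw [hfy] at h2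
  have h3 : (1 : ZMod p) = 0 := congrArg Multiplicative.toAdd h2
  exact one_ne_zero h3

theorem locIndK_of_isPGroup {P : Type u} [Group P] [Finite P] (hP : IsPGroup p P) :
    LocIndK (ZMod p) P := by
  intro L _ hne
  have hnt : Nontrivial L := (Subgroup.nontrivial_iff_ne_bot L).2 hne
  exact exists_hom_of_isPGroup (hP.to_subgroup L)

/-- If `N` is the kernel of a homomorphism of `G` to a finite `p`-group and `N` is locally
indicable, every system over `G` nonsingular modulo `p` is solvable. -/
theorem allSolvK_of_locInd_by_pgroup {G Q : Type u} [Group G] [Group Q] [Finite Q]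
    (hQ : IsPGroup p Q) (π : G →* Q) (hN : LocInd π.ker) : AllSolvK (ZMod p) G :=
  allSolvK_of_extension π (locIndK_of_isPGroup hQ) fun C =>
    allSolvK_locIndK C _ fun _ => locIndK_of_locInd hN

end primes

section integral

/-- A system nonsingular over the rationals is nonsingular modulo some prime. -/
theorem exists_prime_nonsingular {G : Type u} [Group G] {n m : ℕ} (w : Fin m → Star G n)
    (hns : Nonsingular w) :
    ∃ (p : ℕ) (_ : Fact p.Prime), NonsingularK (ZMod p) w := by
  classical
  unfold Nonsingular at hns
  -- a left inverse over the rationals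
  let v : Fin m → Fin n → ℚ := fun r j => (expoVec (w r) j : ℚ)
  let l₀ := hns.repr
  obtain ⟨l, hl⟩ := LinearMap.exists_extend l₀
  have hval : ∀ r, l (v r) = Finsupp.single r 1 := by
    intro r
    have hmem : v r ∈ Submodule.span ℚ (Set.range v) := Submodule.subset_span ⟨r, rfl⟩
    have h1 := LinearMap.congr_fun hl ⟨_, hmem⟩
    simp only [LinearMap.comp_apply, Submodule.subtype_apply] at h1
    rw [h1]
    exact hns.repr_eq_single r ⟨_, hmem⟩ rfl
  let N : Fin n → Fin m → ℚ := fun j s => l (Pi.single j 1) s
  have hMN : ∀ r s, ∑ j, v r j * N j s = if r = s then 1 else 0 := by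
    intro r s
    have h1 : v r = ∑ j, v r j • (Pi.single j 1 : Fin n → ℚ) := by
      ext i
      simp [Finset.sum_apply, Pi.single_apply]
    have h2 : (l (v r)) s = (Finsupp.single r 1 : Fin m →₀ ℚ) s := congrArg (fun z => z s) (hval r)
    rw [h1, map_sum] at h2
    simp only [map_smul, Finsupp.coe_finsetSum, Finset.sum_apply, Finsupp.coe_smul, Pi.smul_apply,
      smul_eq_mul] at h2
    rw [show (∑ j, v r j * N j s) = _ from h2, Finsupp.single_apply]
  -- clear denominators
  obtain ⟨d, hd⟩ := IsLocalization.exist_integer_multiples_of_finite (nonZeroDivisors ℤ)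
    (fun q : Fin n × Fin m => N q.1 q.2)
  have hd0 : (d : ℤ) ≠ 0 := nonZeroDivisors.coe_ne_zero d
  choose N' hN' using fun q : Fin n × Fin m => hd q
  have hMN' : ∀ r s, ∑ j, expoVec (w r) j * N' (j, s) = if r = s then (d : ℤ) else 0 := by
    intro r s
    have h1 : ((∑ j, expoVec (w r) j * N' (j, s) : ℤ) : ℚ)
        = ((if r = s then (d : ℤ) else 0 : ℤ) : ℚ) := by
      push_cast
      have h2 : ∀ j, (expoVec (w r) j : ℚ) * ((N' (j, s) : ℤ) : ℚ)
          = (d : ℤ) * (v r j * N j s) := by
        intro j
        have h3 := hN' (j, s)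
        have h4 : ((N' (j, s) : ℤ) : ℚ) = (d : ℤ) * N j s := by
          simpa [Submonoid.smul_def, zsmul_eq_mul, algebraMap_int_eq] using h3
        rw [h4]
        simp only [v]
        ring
      rw [Finset.sum_congr rfl fun j _ => h2 j, ← Finset.mul_sum, hMN]
      by_cases hrs : r = s <;> simp [hrs]
    exact_mod_cast h1
  -- a prime not dividing `d`
  obtain ⟨p, hple, hp⟩ := Nat.exists_infinite_primes ((d : ℤ).natAbs + 1)
  have hpd : ¬ (p : ℤ) ∣ (d : ℤ) := by
    intro hdvd
    have h1 := Int.natAbs_dvd_natAbs.2 hdvd
    have h2 := Nat.le_of_dvd (Int.natAbs_pos.2 hd0) h1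
    simp at h2
    omega
  refine ⟨p, ⟨hp⟩, ?_⟩
  have : Fact p.Prime := ⟨hp⟩
  unfold NonsingularK
  rw [Fintype.linearIndependent_iff]
  intro c hc s
  have hdne : (((d : ℤ) : ℤ) : ZMod p) ≠ 0 := by
    intro h0
    exact hpd ((ZMod.intCast_zmod_eq_zero_iff_dvd _ _).1 h0)
  have h1 : ∑ r, c r * ((((∑ j, expoVec (w r) j * N' (j, s) : ℤ)) : ℤ) : ZMod p) = 0 := by
    have h2 : ∀ j, ∑ r, c r * ((expoVec (w r) j : ℤ) : ZMod p) = 0 := by
      intro j
      have := congrFun hc j
      simpa [Finset.sum_apply] using this
    calc ∑ r, c r * ((((∑ j, expoVec (w r) j * N' (j, s) : ℤ)) : ℤ) : ZMod p)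
        = ∑ j, (∑ r, c r * ((expoVec (w r) j : ℤ) : ZMod p)) * ((N' (j, s) : ℤ) : ZMod p) := by
          push_cast
          simp only [Finset.mul_sum, Finset.sum_mul]
          rw [Finset.sum_comm]
          refine Finset.sum_congr rfl fun _ _ => Finset.sum_congr rfl fun _ _ => ?_
          ring
      _ = 0 := by simp [h2]
  simp only [hMN'] at h1
  rw [Finset.sum_eq_single s] at h1
  · simp only [if_true] at h1
    exact (mul_eq_zero.1 h1).resolve_right hdne
  · intro b _ hb
    simp [hb]
  · simp

/-- Howie's conjecture reduces, for each prime `p`, to systems nonsingular modulo `p` over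
finitely generated groups without nontrivial homomorphisms to the integers modulo `p`. -/
theorem allSolv_of_primes
    (h : ∀ (p : ℕ) [Fact p.Prime] (G : Type u) [Group G], Group.FG G →
      (∀ φ : G →* Multiplicative (ZMod p), φ = 1) → AllSolvK (ZMod p) G)
    (G : Type u) [Group G] : AllSolv G := by
  intro n m w hns
  obtain ⟨p, hp, hw⟩ := exists_prime_nonsingular w hns
  exact allSolvK_of_b1 (h p) G n m w hw

end integral

end Vale.Agent.P174.Rel.Fld
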