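import Vale.Agent.P174.Rel.Main

/-!
# Nonsingularity over an arbitrary field.
-/

universe u v w

namespace Vale.Agent.P174.Rel.Fld

open Monoid

section defs

variable (K : Type) [Field K]

/-- A system over `G` is nonsingular over the field `K` when the rows of its exponent-sum matrix,
with integers mapped to `K`, are linearly independent over `K`. -/
def NonsingularK {G : Type u} [Group G] {n m : ℕ} (w : Fin m → Star G n) : Prop :=
  LinearIndependent K (fun (r : Fin m) (j : Fin n) => ((expoVec (w r) j : ℤ) : K))

/-- Every finite system over `G` which is nonsingular over `K` is solvable. -/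
def AllSolvK (G : Type u) [Group G] : Prop :=
  ∀ (n m : ℕ) (w : Fin m → Star G n), NonsingularK K w → Solvable w

end defs

section exp

variable (K : Type) [Field K] {B : Type u} [Group B] {Y : Type v}

/-- Exponent vector over `K` of an element of `B * F(Y)`, as a homomorphism. -/
noncomputable def expKHom : Monoid.Coprod B (FreeGroup Y) →* Multiplicative (Y →₀ K) :=
  Monoid.Coprod.lift 1 (FreeGroup.lift fun y => Multiplicative.ofAdd (Finsupp.single y 1))

/-- Exponent vector over `K` of an element of `B * F(Y)`. -/
noncomputable def expK (z : Monoid.Coprod B (FreeGroup Y)) : Y →₀ K :=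
  Multiplicative.toAdd (expKHom K z)

@[simp] theorem expK_one : expK K (1 : Monoid.Coprod B (FreeGroup Y)) = 0 := by
  simp [expK]

@[simp] theorem expK_mul (a b : Monoid.Coprod B (FreeGroup Y)) :
    expK K (a * b) = expK K a + expK K b := by
  simp [expK]

@[simp] theorem expK_inv (a : Monoid.Coprod B (FreeGroup Y)) :
    expK K (a⁻¹) = - expK K a := by
  simp [expK]

@[simp] theorem expK_inl (b : B) :
    expK K (Monoid.Coprod.inl b : Monoid.Coprod B (FreeGroup Y)) = 0 := by
  simp [expK, expKHom]

@[simp] theorem expK_inr_of (y : Y) :
    expK K (Monoid.Coprod.inr (FreeGroup.of y) : Monoid.Coprod B (FreeGroup Y))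
      = Finsupp.single y 1 := by
  simp [expK, expKHom]

end exp

section compact2

variable {K : Type} [Field K] {B : Type u} [Group B] {Y : Type v} {I : Type w}

/-- If every `K`-nonsingular finite system over `B` is solvable, then every family of elements of
`B * F(Y)` whose exponent vectors are linearly independent over `K` has `B` embedded in the
quotient. -/
theorem compactK (hB : AllSolvK K B) (τ : I → Monoid.Coprod B (FreeGroup Y))
    (hτ : LinearIndependent K (fun i => expK K (τ i))) :
    Function.Injective
      ((QuotientGroup.mk' (Subgroup.normalClosure (Set.range τ))).comp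
        (Monoid.Coprod.inl : B →* Monoid.Coprod B (FreeGroup Y))) := by
  classical
  rw [injective_iff_map_eq_one]
  intro b hb
  have hb' : (Monoid.Coprod.inl b : Monoid.Coprod B (FreeGroup Y))
      ∈ Subgroup.normalClosure (Set.range τ) := by
    simpa [QuotientGroup.eq_one_iff] using hb
  obtain ⟨I₀, hI₀⟩ := mem_normalClosure_finset τ hb'
  -- finitely many variables
  let Y₀ : Finset Y := I₀.biUnion fun i => (expK K (τ i)).support
  let e : Y₀ ≃ Fin Y₀.card := Y₀.equivFin
  let f : I₀ ≃ Fin I₀.card := I₀.equivFin
  let lam : Monoid.Coprod B (FreeGroup Y) →* Star B Y₀.card :=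
    Monoid.Coprod.lift Monoid.Coprod.inl
      (FreeGroup.lift fun y =>
        if h : y ∈ Y₀ then Monoid.Coprod.inr (FreeGroup.of (e ⟨y, h⟩)) else 1)
  let w' : Fin I₀.card → Star B Y₀.card := fun k => lam (τ (f.symm k))
  -- exponents of the image
  have hexp : ∀ (z : Monoid.Coprod B (FreeGroup Y)) (j : Fin Y₀.card),
      ((expoVec (lam z) j : ℤ) : K) = expK K z (e.symm j : Y) := by
    intro z j
    induction z using Monoid.Coprod.induction_on with
    | inl b => simp [lam]
    | inr y =>
      induction y using FreeGroup.induction_on with
      | C1 => simp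
      | of y =>
        by_cases h : y ∈ Y₀
        · have : lam (Monoid.Coprod.inr (FreeGroup.of y))
              = Monoid.Coprod.inr (FreeGroup.of (e ⟨y, h⟩)) := by
            simp [lam, h]
          rw [this, expoVec_inr_of, expK_inr_of, Finsupp.single_apply]
          by_cases hj : j = e ⟨y, h⟩
          · subst hj; simp
          · have : y ≠ (e.symm j : Y) := by
              intro hy
              apply hj
              have : e.symm j = ⟨y, h⟩ := Subtype.ext hy.symm
              rw [← this]; simp
            simp [hj, this]
        · have : lam (Monoid.Coprod.inr (FreeGroup.of y)) = 1 := by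
            simp [lam, h]
          rw [this, expoVec_one, expK_inr_of, Finsupp.single_apply]
          have : y ≠ (e.symm j : Y) := by
            intro hy
            exact h (hy ▸ (e.symm j).2)
          simp [this]
      | inv_of y ih =>
        have h1 : (Monoid.Coprod.inr ((FreeGroup.of y)⁻¹) : Monoid.Coprod B (FreeGroup Y))
            = (Monoid.Coprod.inr (FreeGroup.of y))⁻¹ := by simp
        rw [h1, map_inv, expoVec_inv, expK_inv]
        simp only [Int.cast_neg, Finsupp.coe_neg, Pi.neg_apply, ih]
      | mul a b ha hb =>
        have h1 : (Monoid.Coprod.inr (a * b) : Monoid.Coprod B (FreeGroup Y))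
            = Monoid.Coprod.inr a * Monoid.Coprod.inr b := by simp
        rw [h1, map_mul, expoVec_mul, expK_mul]
        simp only [Int.cast_add, Finsupp.coe_add, Pi.add_apply, ha, hb]
    | mul a b ha hb =>
      rw [map_mul, expoVec_mul, expK_mul]
      simp only [Int.cast_add, Finsupp.coe_add, Pi.add_apply, ha, hb]
  -- nonsingularity
  have hns : NonsingularK K w' := by
    unfold NonsingularK
    rw [Fintype.linearIndependent_iff]
    intro c hc k
    -- pull back to the family `τ`
    have hτ' : LinearIndependent K (fun k : Fin I₀.card => expK K (τ (f.symm k))) := by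
      refine hτ.comp (fun k => ((f.symm k : I₀) : I)) ?_
      intro a b hab
      exact f.symm.injective (Subtype.ext hab)
    rw [Fintype.linearIndependent_iff] at hτ'
    refine hτ' c ?_ k
    ext y
    by_cases hy : y ∈ Y₀
    · have := congrFun hc (e ⟨y, hy⟩)
      simp only [Finset.sum_apply, Pi.smul_apply, Pi.zero_apply, smul_eq_mul] at this
      simp only [Finsupp.coe_finsetSum, Finset.sum_apply, Finsupp.coe_smul, Pi.smul_apply,
        smul_eq_mul, Finsupp.coe_zero, Pi.zero_apply]
      rw [← this]
      refine Finset.sum_congr rfl fun i _ => ?_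
      simp only [w']
      rw [hexp]
      simp
    · simp only [Finsupp.coe_finsetSum, Finset.sum_apply, Finsupp.coe_smul, Pi.smul_apply,
        smul_eq_mul, Finsupp.coe_zero, Pi.zero_apply]
      refine Finset.sum_eq_zero fun i _ => ?_
      have : expK K (τ (f.symm i)) y = 0 := by
        by_contra hne
        apply hy
        simp only [Y₀, Finset.mem_biUnion]
        exact ⟨(f.symm i : I), (f.symm i).2, by simpa using hne⟩
      simp [this]
  have hsol := hB _ _ w' hns
  -- transport membership
  have hmem : (Monoid.Coprod.inl b : Star B Y₀.card)
      ∈ Subgroup.normalClosure (Set.range w') := by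
    have hle : Subgroup.normalClosure (τ '' (I₀ : Set I))
        ≤ (Subgroup.normalClosure (Set.range w')).comap lam := by
      refine Subgroup.normalClosure_le_normal ?_
      rintro _ ⟨i, hi, rfl⟩
      refine Subgroup.subset_normalClosure ?_
      refine ⟨f ⟨i, hi⟩, ?_⟩
      simp [w']
    have := hle hI₀
    simpa [lam] using this
  have h1 : ((QuotientGroup.mk' (Subgroup.normalClosure (Set.range w'))).comp
      (Monoid.Coprod.inl : B →* Star B Y₀.card)) b = 1 := by
    simpa [QuotientGroup.eq_one_iff] using hmem
  exact (injective_iff_map_eq_one _).1 hsol b h1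

end compact2

section inherit

variable {K : Type} [Field K] {H H' : Type u} [Group H] [Group H']

/-- `K`-nonsingular solvability passes to subgroups. -/
theorem allSolvK_of_injective (f : H →* H') (hf : Function.Injective f) (h : AllSolvK K H') :
    AllSolvK K H := by
  intro n m w hns
  let F : Star H n →* Star H' n :=
    Monoid.Coprod.lift (Monoid.Coprod.inl.comp f) Monoid.Coprod.inr
  have hexp : ∀ (z : Star H n) (j : Fin n), expoVec (F z) j = expoVec z j := by
    intro z j
    induction z using star_induction with
    | hinl g => simp [F]
    | hx i => simp [F]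
    | hmul a b ha hb => simp [ha, hb]
    | hinv a ha => simp [ha]
  have hns' : NonsingularK K (fun r => F (w r)) := by
    unfold NonsingularK at hns ⊢
    simpa only [hexp] using hns
  have hs := h n m _ hns'
  rw [Solvable, injective_iff_map_eq_one] at hs ⊢
  intro g hg
  have hg' : (Monoid.Coprod.inl g : Star H n) ∈ Subgroup.normalClosure (Set.range w) := by
    simpa [QuotientGroup.eq_one_iff] using hg
  have hle : Subgroup.normalClosure (Set.range w)
      ≤ (Subgroup.normalClosure (Set.range fun r => F (w r))).comap F := by
    refine Subgroup.normalClosure_le_normal ?_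
    rintro _ ⟨r, rfl⟩
    exact Subgroup.subset_normalClosure ⟨r, rfl⟩
  have h2 := hle hg'
  have h3 : f g = 1 := by
    apply hs
    have : F (Monoid.Coprod.inl g) = Monoid.Coprod.inl (f g) := by simp [F]
    rw [Subgroup.mem_comap, this] at h2
    simpa [QuotientGroup.eq_one_iff] using h2
  exact (injective_iff_map_eq_one _).1 hf g h3

end inherit

end Vale.Agent.P174.Rel.Fld
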