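import Vale.Agent.P174.Fld.Words

/-!
# The lifting step over a field.
-/

universe u y r

namespace Vale.Agent.P174.Rel.Fld

open Monoid

section lift

variable {K : Type} [Field K] {V : Type u} {A : V → Type u} [∀ v, Group (A v)] {Y : Type y}
  {R : Type r} {Q : Type} [Group Q] {π : Monoid.CoprodI A →* Q}
variable (D : ∀ v, Transv (pc π v)) (t : Y → Q)

/-- The lift of a witness. -/
noncomputable def Wit.lift (W : Wit K A Y R) (ht : ∀ r, theta π t (evalW (W.rel r)) = 1)
    (hpt : ∀ x y : Q, x ≠ y → ∃ d, ∃ f ∈ PhiK K Q d, f x ≠ f y) :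
    Wit K (AK π) (Y × Q) (R × Q) where
  gw := liftC D W.gw 1
  fac := W.fac.map (liftF D t)
  rel := liftR D t W.rel
  indep := by
    have h := rows_indep (totCoc D) t (fun r => evalW (W.rel r)) W.indep hpt
    simp only [liftR, evalW_liftW]
    exact h
  ident := by
    have h1 := congrArg (fun z => bigF (totCoc D) t z 1) W.ident
    simp only [bigF] at h1
    rw [Fn_inl, Fn_list_prod t _ _ _ _ 1] at h1
    · rw [evalC_liftC]
      simp only [List.map_map]
      have h2 : (bigCoc (totCoc D) Y).k (evalC W.gw) 1 = Monoid.Coprod.inl ((totCoc D).k (evalC W.gw) 1) :=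
        rfl
      rw [← h2, h1]
      congr 1
      rw [List.map_map]
      apply List.map_congr_left
      intro f _
      exact bigF_facVal D t W.rel ht f
    · intro z hz
      obtain ⟨f, _, rfl⟩ := List.mem_map.1 hz
      exact theta_facVal t W.rel ht f

theorem Wit.lift_total_le_facs (W : Wit K A Y R) (ht : ∀ r, theta π t (evalW (W.rel r)) = 1)
    (hpt : ∀ x y : Q, x ≠ y → ∃ d, ∃ f ∈ PhiK K Q d, f x ≠ f y) :
    ((W.lift D t ht hpt).fac.map fun f => wtW f.1 + wtW ((W.lift D t ht hpt).rel f.2.1)).sum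
      = (W.fac.map fun f => wtW (liftW D t f.1 (lvl (π := π) t f))
          + wtW (liftW D t (W.rel f.2.1) (lvl (π := π) t f))).sum := by
  simp only [Wit.lift, List.map_map]
  rfl

/-- If a letter occurs in a witness, there is a level such that killing the cocycle of that letter
at this level decreases the total weight. -/
theorem Wit.exists_kill_level (W : Wit K A Y R) (ht : ∀ r, theta π t (evalW (W.rel r)) = 1)
    (hpt : ∀ x y : Q, x ≠ y → ∃ d, ∃ f ∈ PhiK K Q d, f x ≠ f y) (c : Σ v, A v) (hc : W.Occ c) :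
    ∃ y : Q, ∀ D : ∀ v, Transv (pc π v), wtC (liftCo D c y) < wtC c →
      (W.lift D t ht hpt).total < W.total := by
  have hfac_le : ∀ D : ∀ v, Transv (pc π v),
      ∀ f ∈ W.fac, wtW (liftW D t f.1 (lvl (π := π) t f))
        + wtW (liftW D t (W.rel f.2.1) (lvl (π := π) t f)) ≤ wtW f.1 + wtW (W.rel f.2.1) :=
    fun D f _ => Nat.add_le_add (wtW_liftW_le D t _ _) (wtW_liftW_le D t _ _)
  rcases hc with hc | ⟨f, hf, hc | hc⟩
  · obtain ⟨W₁, W₂, hW⟩ := List.append_of_mem hc
    refine ⟨π (evalC W₂) * 1, fun D hk => ?_⟩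
    have h1 : wtCW (liftC D W.gw 1) < wtCW W.gw := by
      rw [hW]
      exact wtCW_liftC_lt D W₁ W₂ c 1 hk
    have h2 := List.sum_le_sum (hfac_le D)
    unfold Wit.total
    rw [W.lift_total_le_facs D t ht hpt]
    exact Nat.add_lt_add_of_lt_of_le h1 h2
  · obtain ⟨W₁, W₂, hW⟩ := List.append_of_mem hc
    refine ⟨theta π t (evalW W₂) * lvl (π := π) t f, fun D hk => ?_⟩
    have h1 : wtW (liftW D t f.1 (lvl (π := π) t f)) < wtW f.1 := by
      rw [hW]
      exact wtW_liftW_lt D t W₁ W₂ c _ hk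
    have h2 := List.sum_lt_sum _ _ (hfac_le D) ⟨f, hf, Nat.add_lt_add_of_lt_of_le h1
      (wtW_liftW_le D t _ _)⟩
    unfold Wit.total
    rw [W.lift_total_le_facs D t ht hpt]
    exact Nat.add_lt_add_of_le_of_lt (wtCW_liftC_le D _ _) h2
  · obtain ⟨W₁, W₂, hW⟩ := List.append_of_mem hc
    refine ⟨theta π t (evalW W₂) * lvl (π := π) t f, fun D hk => ?_⟩
    have h1 : wtW (liftW D t (W.rel f.2.1) (lvl (π := π) t f)) < wtW (W.rel f.2.1) := by
      rw [hW]
      exact wtW_liftW_lt D t W₁ W₂ c _ hk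
    have h2 := List.sum_lt_sum _ _ (hfac_le D) ⟨f, hf, Nat.add_lt_add_of_le_of_lt
      (wtW_liftW_le D t _ _) h1⟩
    unfold Wit.total
    rw [W.lift_total_le_facs D t ht hpt]
    exact Nat.add_lt_add_of_le_of_lt (wtCW_liftC_le D _ _) h2

end lift

end Vale.Agent.P174.Rel.Fld
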