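import Vale.Agent.P174.Fld.Lift

/-!
# The relative theorem over a field.
-/

universe u y r

namespace Vale.Agent.P174.Rel.Fld

open Monoid

section step

variable {K : Type} [Field K] {V : Type u} {A : V → Type u} [∀ v, Group (A v)] {Y : Type y}
  {R : Type r}

/-- The lifting step for a homomorphism of one factor to the rationals, nontrivial on a letter
occurring in the witness. -/
theorem Wit.lift_step (W : Wit K A Y R) (v₀ : V) (φ : A v₀ →* Multiplicative K) (a₀ : A v₀) (ha : φ a₀ ≠ 1)
    (hocc : W.Occ ⟨v₀, a₀⟩) :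
    ∃ (π : Monoid.CoprodI A →* Multiplicative K) (W' : Wit K (AK π) (Y × Multiplicative K) (R × Multiplicative K)),
      W'.total < W.total ∧ (evalC W'.gw = 1 → evalC W.gw = 1) := by
  classical
  let π : Monoid.CoprodI A →* Multiplicative K := Monoid.CoprodI.lift (Function.update (fun _ => 1) v₀ φ)
  have hpc0 : ∀ a, pc π v₀ a = φ a := by
    intro a
    simp [π]
  have hpc : ∀ v, v ≠ v₀ → ∀ a : A v, pc π v a = 1 := by
    intro v hv a
    simp [π, Function.update_of_ne hv]
  obtain ⟨t, ht⟩ := exists_solutionK π (fun r => evalW (W.rel r)) W.indep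
  obtain ⟨y, hy⟩ := W.exists_kill_level t ht MK_sep ⟨v₀, a₀⟩ hocc
  have hD : ∀ v, ∃ D : Transv (pc π v), (v ≠ v₀ → ∀ x, D.a x = 1 ∧ D.idx x = x) ∧
      (∀ a : A v, (⟨v, a⟩ : Σ v, A v) = ⟨v₀, a₀⟩ → D.coc a y = 1) := by
    intro v
    by_cases hv : v = v₀
    · subst hv
      obtain ⟨D, hD⟩ := exists_transv_kill (π := pc π v) a₀ y (by rw [hpc0]; exact ha)
      refine ⟨D, fun h => absurd rfl h, ?_⟩
      intro a ha'
      have : a = a₀ := eq_of_heq (Sigma.mk.inj ha').2
      rw [this]
      exact hD
    · refine ⟨Transv.triv (hpc v hv), fun _ x => ⟨rfl, rfl⟩, ?_⟩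
      intro a ha'
      exact absurd (congrArg Sigma.fst ha') hv
  choose D hD1 hD2 using hD
  refine ⟨π, W.lift D t ht MK_sep, hy D ?_, ?_⟩
  · have h1 : (liftCo D ⟨v₀, a₀⟩ y).2 = 1 := hD2 v₀ a₀ rfl
    have ha₀ : a₀ ≠ 1 := by
      rintro rfl
      simp at ha
    rw [wtC_of_ne ha₀]
    simp [wtC, h1]
  · intro h
    let β : Multiplicative K → Monoid.CoprodI A := fun x => Monoid.CoprodI.of ((D v₀).a x)
    let γ : V → Multiplicative K → Monoid.CoprodI A := fun v r => if v = v₀ then 1 else β r
    have hco : ∀ v x, Monoid.CoprodI.of ((D v).a x) * γ v ((D v).idx x) = β x := by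
      intro v x
      by_cases hv : v = v₀
      · subst hv
        simp [γ, β]
      · obtain ⟨h1, h2⟩ := hD1 v hv x
        simp [γ, hv, h1, h2]
    have hπ : π (evalC W.gw) = 1 := by
      have h1 := congrArg (theta π t) W.ident
      rw [theta_inl, map_list_prod] at h1
      rw [h1]
      apply List.prod_eq_one
      intro b hb
      obtain ⟨z, hz, rfl⟩ := List.mem_map.1 hb
      obtain ⟨f, _, rfl⟩ := List.mem_map.1 hz
      exact theta_facVal t W.rel ht f
    have hX := Xi_tot D β γ hco (evalC W.gw) 1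
    have h1 : (totCoc D).k (evalC W.gw) 1 = 1 := by
      rw [← evalC_liftC]
      exact h
    rw [h1, map_one, hπ, one_mul] at hX
    have h2 : evalC W.gw = β 1 * ((β 1)⁻¹ * evalC W.gw * β 1) * (β 1)⁻¹ := by group
    rw [h2, ← hX]
    simp

end step

section main

variable (K : Type) [Field K] (Cl : (H : Type u) → [Group H] → Prop)

/-- The free product of the subgroups generated by the letters of a witness is finitely
generated. -/
theorem Wit.shrink_fg {K : Type} [Field K] {V : Type u} {A : V → Type u} [∀ v, Group (A v)]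
    {Y : Type y} {R : Type r} (W : Wit K A Y R) : Group.FG (Monoid.CoprodI fun v => W.Hgp v) := by
  classical
  rw [Group.fg_iff]
  refine ⟨(fun c => Monoid.CoprodI.of (shC W.Hgp c).2) '' {c | W.Occ c}, ?_, W.occ_finite.image _⟩
  rw [eq_top_iff]
  rintro g -
  induction g using Monoid.CoprodI.induction_on with
  | one => exact Subgroup.one_mem _
  | @of v a =>
    obtain ⟨x, hx⟩ := a
    induction hx using Subgroup.closure_induction with
    | mem x hx =>
      apply Subgroup.subset_closure
      refine ⟨⟨v, x⟩, hx, ?_⟩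
      have h2 : shC W.Hgp ⟨v, x⟩ = ⟨v, ⟨x, Subgroup.subset_closure hx⟩⟩ :=
        shC_of_mem W.Hgp (c := ⟨v, x⟩) (Subgroup.subset_closure hx)
      have h3 : ∀ c' : Σ v, W.Hgp v, c' = ⟨v, ⟨x, Subgroup.subset_closure hx⟩⟩ →
          (Monoid.CoprodI.of c'.2 : Monoid.CoprodI fun v => W.Hgp v)
            = Monoid.CoprodI.of ⟨x, Subgroup.subset_closure hx⟩ := by
        rintro _ rfl
        rfl
      exact h3 _ h2
    | one =>
      have : (⟨1, Subgroup.one_mem _⟩ : W.Hgp v) = 1 := rfl
      rw [this, map_one]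
      exact Subgroup.one_mem _
    | mul x y hx hy ihx ihy =>
      have : (⟨x * y, Subgroup.mul_mem _ hx hy⟩ : W.Hgp v) = ⟨x, hx⟩ * ⟨y, hy⟩ := rfl
      rw [this, map_mul]
      exact Subgroup.mul_mem _ ihx ihy
    | inv x hx ih =>
      have : (⟨x⁻¹, Subgroup.inv_mem _ hx⟩ : W.Hgp v) = ⟨x, hx⟩⁻¹ := rfl
      rw [this, map_inv]
      exact Subgroup.inv_mem _ ih
  | mul a b ha hb => exact Subgroup.mul_mem _ ha hb

/-- The main induction, on the total weight of a witness. -/
theorem wit_main (hsub : ∀ (H : Type u) [Group H] (K : Subgroup H), Cl H → Cl K)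
    (hB : ∀ (V : Type u) (A : V → Type u) [∀ v, Group (A v)], (∀ v, Cl (A v)) →
      (∀ v, Group.FG (A v)) → (∀ v, ∀ φ : A v →* Multiplicative K, φ = 1) →
      Group.FG (Monoid.CoprodI A) → AllSolvK K (Monoid.CoprodI A)) :
    ∀ (T : ℕ) (V : Type u) (A : V → Type u) [∀ v, Group (A v)] (Y R : Type) (W : Wit K A Y R),
      (∀ v, Cl (A v)) → W.total < T → evalC W.gw = 1 := by
  intro T
  induction T with
  | zero =>
    intro V A _ Y R W _ hT
    exact absurd hT (Nat.not_lt_zero _)
  | succ T ih =>
    intro V A _ Y R W hCl hT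
    apply W.shrink_faithful
    by_cases hall : ∀ v, ∀ φ : W.Hgp v →* Multiplicative K, φ = 1
    · exact wit_base (hB V _ (fun v => hsub _ _ (hCl v))
        (fun v => (Group.fg_iff_subgroup_fg _).2 (W.Hgp_fg v)) hall W.shrink_fg) W.shrink
    · push Not at hall
      obtain ⟨v₀, φ', hφ'⟩ := hall
      obtain ⟨a, ha, hocc⟩ := W.exists_occ_of_ne v₀ φ' hφ'
      obtain ⟨π, W', hlt, hfaith⟩ := W.shrink.lift_step v₀ φ' a ha hocc
      apply hfaith
      refine ih (V × Multiplicative K) (AK π) (Y × Multiplicative K) (R × Multiplicative K) W' ?_ ?_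
      · intro p
        exact hsub _ _ (hsub _ _ (hCl p.1))
      · have := W.shrink_total
        omega

theorem expK_eq_expoVec {K : Type} [Field K] {G : Type u} [Group G] {n : ℕ} (z : Star G n)
    (j : Fin n) : expK K z j = ((expoVec z j : ℤ) : K) := by
  induction z using star_induction with
  | hinl g => simp
  | hx i =>
    rw [expK_inr_of, expoVec_inr_of, Finsupp.single_apply]
    by_cases h : i = j
    · subst h; simp
    · have h' : j ≠ i := fun e => h e.symm
      simp [h, h']
  | hmul a b ha hb => simp [ha, hb]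
  | hinv a ha => simp [ha]

/-- The abstract relative theorem over a field. -/
theorem allSolvK_of_cl (hsub : ∀ (H : Type u) [Group H] (K' : Subgroup H), Cl H → Cl K')
    (hB : ∀ (V : Type u) (A : V → Type u) [∀ v, Group (A v)], (∀ v, Cl (A v)) →
      (∀ v, Group.FG (A v)) → (∀ v, ∀ φ : A v →* Multiplicative K, φ = 1) →
      Group.FG (Monoid.CoprodI A) → AllSolvK K (Monoid.CoprodI A))
    (V : Type u) (A : V → Type u) [∀ v, Group (A v)] (hCl : ∀ v, Cl (A v)) :
    AllSolvK K (Monoid.CoprodI A) := by
  intro n m w hns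
  rw [Solvable, injective_iff_map_eq_one]
  intro g hg
  have hg' : (Monoid.Coprod.inl g : Star (Monoid.CoprodI A) n)
      ∈ Subgroup.normalClosure (Set.range w) := by
    simpa [QuotientGroup.eq_one_iff] using hg
  obtain ⟨l, hl⟩ := mem_normalClosure_list w hg'
  obtain ⟨gw, rfl⟩ := evalC_surj g
  have hsurj := fun r => evalW_surj (A := A) (w r)
  choose rel hrel using hsurj
  have hsurj2 := fun z : Star (Monoid.CoprodI A) n => evalW_surj (A := A) z
  choose uw huw using hsurj2
  let W : Wit K A (Fin n) (Fin m) :=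
    { gw := gw
      fac := l.map fun f => (uw f.1, f.2.1, f.2.2)
      rel := rel
      indep := by
        simp only [hrel]
        apply LinearIndependent.of_comp
          (Finsupp.linearEquivFunOnFinite K K (Fin n)).toLinearMap
        have : (⇑(Finsupp.linearEquivFunOnFinite K K (Fin n)).toLinearMap ∘ fun r => expK K (w r))
            = fun r j => ((expoVec (w r) j : ℤ) : K) := by
          ext r j
          simp [expK_eq_expoVec]
        rw [this]
        exact hns
      ident := by
        rw [hl, List.map_map]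
        congr 1
        apply List.map_congr_left
        intro f _
        simp [facVal, huw, hrel] }
  exact wit_main K Cl hsub hB (W.total + 1) V A (Fin n) (Fin m) W hCl (Nat.lt_succ_self _)

end main

end Vale.Agent.P174.Rel.Fld
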