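import Vale.Agent.P174.Fld.Defs

/-!
# Independence over a field of the universal relators, for arbitrary families of relators.
-/

universe u v w y r

namespace Vale.Agent.P174.Rel.Fld

open Monoid

section poly

variable (K : Type) [Field K] (Q : Type v) [Group Q]

/-- Polynomial functions on `Q` with respect to left differences: `Phi 0 = 0`, and `f` lies in
`Phi (d+1)` when all its left differences `x ↦ f (g x) - f x` lie in `PhiK d`. -/
def PhiK : ℕ → Submodule K (Q → K)
  | 0 => ⊥
  | d + 1 =>
    { carrier := {f | ∀ g : Q, (fun x => f (g * x) - f x) ∈ PhiK d}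
      add_mem' := by
        intro a b ha hb g
        have := (PhiK d).add_mem (ha g) (hb g)
        convert this using 1
        ext x
        simp only [Pi.add_apply]
        ring
      zero_mem' := by
        intro g
        have := (PhiK d).zero_mem
        convert this using 1
        ext x
        simp
      smul_mem' := by
        intro c a ha g
        have := (PhiK d).smul_mem c (ha g)
        convert this using 1
        ext x
        simp only [Pi.smul_apply, smul_eq_mul]
        ring }

variable {K Q}

theorem mem_PhiK_succ {d : ℕ} {f : Q → K} :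
    f ∈ PhiK K Q (d + 1) ↔ ∀ g : Q, (fun x => f (g * x) - f x) ∈ PhiK K Q d := Iff.rfl

theorem mem_PhiK_zero {f : Q → K} : f ∈ PhiK K Q 0 ↔ f = 0 := Iff.rfl

theorem PhiK_succ_le (d : ℕ) : PhiK K Q d ≤ PhiK K Q (d + 1) := by
  induction d with
  | zero =>
    intro f hf
    rw [mem_PhiK_zero] at hf
    subst hf
    exact Submodule.zero_mem _
  | succ d ih =>
    intro f hf g
    exact ih (hf g)

theorem PhiK_mono : Monotone (PhiK K Q) := monotone_nat_of_le_succ PhiK_succ_le

theorem const_mem_PhiK (c : K) : (fun _ : Q => c) ∈ PhiK K Q 1 := by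
  intro g
  rw [mem_PhiK_zero]
  ext x
  simp

theorem translate_mem_PhiK {d : ℕ} {f : Q → K} (hf : f ∈ PhiK K Q d) (h : Q) :
    (fun x => f (h * x)) ∈ PhiK K Q d := by
  cases d with
  | zero =>
    rw [mem_PhiK_zero] at hf ⊢
    subst hf
    rfl
  | succ d =>
    intro g
    have := (PhiK K Q d).sub_mem (hf (h * g)) (hf h)
    convert this using 1
    ext x
    simp [mul_assoc]

theorem mul_mem_PhiK (N : ℕ) : ∀ (a b : ℕ), a + b = N → ∀ f h : Q → K,
    f ∈ PhiK K Q a → h ∈ PhiK K Q b → (fun x => f x * h x) ∈ PhiK K Q (a + b) := by
  induction N with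
  | zero =>
    intro a b hab f h hf _
    obtain rfl : a = 0 := by omega
    rw [mem_PhiK_zero] at hf
    subst hf
    convert (PhiK K Q _).zero_mem using 1
    ext x
    simp
  | succ N ih =>
    intro a b hab f h hf hh
    rcases a with _ | a
    · rw [mem_PhiK_zero] at hf
      subst hf
      convert (PhiK K Q _).zero_mem using 1
      ext x
      simp
    rcases b with _ | b
    · rw [mem_PhiK_zero] at hh
      subst hh
      convert (PhiK K Q _).zero_mem using 1
      ext x
      simp
    have : a + 1 + (b + 1) = (a + 1 + b) + 1 := by omega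
    rw [this]
    intro g
    have h1 := ih (a + 1) b (by omega) (fun x => f (g * x)) (fun x => h (g * x) - h x)
      (translate_mem_PhiK hf g) (hh g)
    have h2 := ih a (b + 1) (by omega) (fun x => f (g * x) - f x) h (hf g) hh
    have h3 : a + (b + 1) = a + 1 + b := by omega
    rw [h3] at h2
    have := (PhiK K Q _).add_mem h1 h2
    convert this using 1
    ext x
    simp only [Pi.add_apply]
    ring

theorem mul_mem_PhiK' {a b : ℕ} {f h : Q → K} (hf : f ∈ PhiK K Q a) (hh : h ∈ PhiK K Q b) :
    (fun x => f x * h x) ∈ PhiK K Q (a + b) :=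
  mul_mem_PhiK (a + b) a b rfl f h hf hh

/-- From a separating family of polynomial functions one gets polynomial functions vanishing on a
finite set and not at a point outside of it. -/
theorem exists_polyK_of_sep
    (hpt : ∀ x y : Q, x ≠ y → ∃ d, ∃ f ∈ PhiK K Q d, f x ≠ f y) (x₀ : Q) (S : Finset Q)
    (hS : x₀ ∉ S) : ∃ d, ∃ f ∈ PhiK K Q d, f x₀ ≠ 0 ∧ ∀ y ∈ S, f y = 0 := by
  classical
  induction S using Finset.induction_on with
  | empty =>
    exact ⟨1, fun _ => 1, const_mem_PhiK 1, by simp, by simp⟩
  | insert y S hyS ih =>
    have hy : x₀ ≠ y := fun h => hS (by simp [h])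
    obtain ⟨d, f, hf, hfx, hfS⟩ := ih (fun h => hS (by simp [h]))
    obtain ⟨d', l, hl, hlne⟩ := hpt x₀ y hy
    have hl' : l ∈ PhiK K Q (d' + 1) := PhiK_succ_le d' hl
    have hc : (fun _ : Q => l y) ∈ PhiK K Q (d' + 1) :=
      PhiK_mono (by omega : 1 ≤ d' + 1) (const_mem_PhiK (l y))
    have hd := (PhiK K Q (d' + 1)).sub_mem hl' hc
    refine ⟨d + (d' + 1), fun x => f x * (l x - l y), mul_mem_PhiK' hf hd, ?_, ?_⟩
    · simp only
      exact mul_ne_zero hfx (sub_ne_zero.2 hlne)
    · intro z hz
      rcases Finset.mem_insert.1 hz with rfl | hz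
      · simp
      · simp [hfS z hz]

end poly

section rows

variable {K : Type} [Field K] {G : Type u} {Q : Type v} {B : Type w} {Y : Type y} {R : Type r}
  [Group G] [Group Q] [Group B] {π : G →* Q}

open scoped Classical in
/-- The functional on exponent vectors pairing the `j`-th block with `f`. -/
noncomputable def pairing (f : Q → K) (j : Y) : (Y × Q →₀ K) →ₗ[K] K :=
  Finsupp.linearCombination K (fun y : Y × Q => if y.1 = j then f y.2 else 0)

/-- The universal Fox-calculus pairing. -/
noncomputable def Afun (κ : Coc π B) (t : Y → Q) (f : Q → K) (j : Y)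
    (w : Monoid.Coprod G (FreeGroup Y)) (x : Q) : K :=
  pairing f j (expK K (bigF κ t w x))

theorem Afun_mul (κ : Coc π B) (t : Y → Q) (f : Q → K) (j : Y)
    (u v : Monoid.Coprod G (FreeGroup Y)) (x : Q) :
    Afun κ t f j (u * v) x = Afun κ t f j u (theta π t v * x) + Afun κ t f j v x := by
  simp [Afun, bigF, Fn_mul]

theorem Afun_inv (κ : Coc π B) (t : Y → Q) (f : Q → K) (j : Y)
    (u : Monoid.Coprod G (FreeGroup Y)) (x : Q) :
    Afun κ t f j u⁻¹ (theta π t u * x) = - Afun κ t f j u x := by
  simp only [Afun, bigF, Fn_inv, expK_inv, map_neg]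

theorem Afun_inl (κ : Coc π B) (t : Y → Q) (f : Q → K) (j : Y) (g : G) (x : Q) :
    Afun κ t f j (Monoid.Coprod.inl g) x = 0 := by
  simp [Afun, bigF, bigCoc, Coc.push]

open scoped Classical in
theorem Afun_x (κ : Coc π B) (t : Y → Q) (f : Q → K) (j i : Y) (x : Q) :
    Afun κ t f j (Monoid.Coprod.inr (FreeGroup.of i)) x = if i = j then f x else 0 := by
  simp [Afun, bigF, bigTau, pairing]

open scoped Classical in
/-- The first-order behaviour of the Fox pairing on polynomial functions. -/
theorem Afun_sub_mem (κ : Coc π B) (t : Y → Q) {d : ℕ} {f : Q → K} (hf : f ∈ PhiK K Q (d + 1))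
    (j : Y) (w : Monoid.Coprod G (FreeGroup Y)) :
    (fun x => Afun κ t f j w x - (expK K w j) * f x) ∈ PhiK K Q d := by
  induction w using starY_induction with
  | hinl g =>
    have : (fun x => Afun κ t f j (Monoid.Coprod.inl g : Monoid.Coprod G (FreeGroup Y)) x
        - (expK K (Monoid.Coprod.inl g : Monoid.Coprod G (FreeGroup Y)) j) * f x) = 0 := by
      ext x
      simp [Afun_inl]
    rw [this]
    exact Submodule.zero_mem _
  | hx i =>
    have : (fun x => Afun κ t f j (Monoid.Coprod.inr (FreeGroup.of i) :
          Monoid.Coprod G (FreeGroup Y)) x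
        - (expK K (Monoid.Coprod.inr (FreeGroup.of i) : Monoid.Coprod G (FreeGroup Y)) j) * f x)
        = 0 := by
      ext x
      rw [Afun_x, expK_inr_of, Finsupp.single_apply]
      by_cases h : i = j
      · subst h; simp
      · simp [h]
    rw [this]
    exact Submodule.zero_mem _
  | hmul u v hu hv =>
    have h1 := translate_mem_PhiK hu (theta π t v)
    have h2 := (PhiK K Q d).smul_mem (expK K u j) (hf (theta π t v))
    have := (PhiK K Q d).add_mem ((PhiK K Q d).add_mem h1 h2) hv
    convert this using 1
    ext x
    simp only [Afun_mul, expK_mul, Finsupp.add_apply, Pi.add_apply, Pi.smul_apply, smul_eq_mul]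
    ring
  | hinv u hu =>
    have h1 := translate_mem_PhiK hu (theta π t u)⁻¹
    have h2 := (PhiK K Q d).smul_mem (-(expK K u j)) (hf (theta π t u)⁻¹)
    have := (PhiK K Q d).add_mem ((PhiK K Q d).neg_mem h1) h2
    convert this using 1
    ext x
    have h3 := Afun_inv κ t f j u ((theta π t u)⁻¹ * x)
    simp only [mul_inv_cancel_left] at h3
    simp only [h3, expK_inv, Finsupp.neg_apply, Pi.add_apply, Pi.neg_apply, Pi.smul_apply,
      smul_eq_mul]
    ring

/-- Independence of the universal relators, given separating polynomial functions and independent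
exponent vectors. -/
theorem rows_indep (κ : Coc π B) (t : Y → Q) (w : R → Monoid.Coprod G (FreeGroup Y))
    (hns : LinearIndependent K (fun r => expK K (w r)))
    (hpt : ∀ x y : Q, x ≠ y → ∃ d, ∃ f ∈ PhiK K Q d, f x ≠ f y) :
    LinearIndependent K (fun i : R × Q => expK K (bigF κ t (w i.1) i.2)) := by
  classical
  rw [linearIndependent_iff]
  intro c hc
  -- pair the relation with all functionals
  have hpair : ∀ (f : Q → K) (j : Y),
      ∑ i ∈ c.support, c i * Afun κ t f j (w i.1) i.2 = 0 := by
    intro f j
    have := congrArg (pairing f j) hc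
    rw [Finsupp.linearCombination_apply, Finsupp.sum, map_sum, map_zero] at this
    simpa [Afun] using this
  -- the main induction
  have hmain : ∀ (d : ℕ) (f : Q → K), f ∈ PhiK K Q d → ∀ r : R,
      ∑ i ∈ c.support, c i * (if i.1 = r then f i.2 else 0) = 0 := by
    intro d
    induction d with
    | zero =>
      intro f hf r
      rw [mem_PhiK_zero] at hf
      subst hf
      simp
    | succ d ih =>
      intro f hf
      let s : Finset R := c.support.image Prod.fst
      have hs : ∀ r ∈ s, ∑ i ∈ c.support, c i * (if i.1 = r then f i.2 else 0) = 0 := by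
        rw [linearIndependent_iff'] at hns
        refine hns s _ ?_
        ext j
        simp only [Finsupp.coe_finsetSum, Finset.sum_apply, Finsupp.coe_smul, Pi.smul_apply,
          smul_eq_mul, Finsupp.coe_zero, Pi.zero_apply]
        -- the difference functions
        have hh : ∀ r : R,
            ∑ i ∈ c.support, c i * (if i.1 = r then
              (Afun κ t f j (w r) i.2 - (expK K (w r) j) * f i.2) else 0) = 0 :=
          fun r => ih _ (Afun_sub_mem κ t hf j (w r)) r
        have h1 := hpair f j
        have h2 : ∑ i ∈ c.support, c i * Afun κ t f j (w i.1) i.2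
            = ∑ r ∈ s, ∑ i ∈ c.support, c i * (if i.1 = r then
                (Afun κ t f j (w r) i.2 - (expK K (w r) j) * f i.2) else 0)
              + ∑ r ∈ s, (∑ i ∈ c.support, c i * (if i.1 = r then f i.2 else 0))
                  * (expK K (w r) j) := by
          rw [← Finset.sum_add_distrib]
          have : ∀ r : R, ∑ i ∈ c.support, c i * (if i.1 = r then
                (Afun κ t f j (w r) i.2 - (expK K (w r) j) * f i.2) else 0)
              + (∑ i ∈ c.support, c i * (if i.1 = r then f i.2 else 0)) * (expK K (w r) j)
              = ∑ i ∈ c.support, c i * (if i.1 = r then Afun κ t f j (w r) i.2 else 0) := by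
            intro r
            rw [Finset.sum_mul, ← Finset.sum_add_distrib]
            refine Finset.sum_congr rfl fun i _ => ?_
            by_cases h : i.1 = r
            · simp only [h, if_true]; ring
            · simp [h]
          rw [Finset.sum_congr rfl fun r _ => this r, Finset.sum_comm]
          refine Finset.sum_congr rfl fun i hi => ?_
          rw [← Finset.mul_sum]
          congr 1
          rw [Finset.sum_eq_single i.1]
          · simp
          · intro r _ hr
            have : i.1 ≠ r := fun e => hr e.symm
            simp [this]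
          · intro hnot
            exact absurd (Finset.mem_image_of_mem Prod.fst hi) hnot
        rw [h2, Finset.sum_eq_zero (fun r _ => hh r), zero_add] at h1
        exact h1
      intro r
      by_cases hr : r ∈ s
      · exact hs r hr
      · apply Finset.sum_eq_zero
        intro i hi
        have : i.1 ≠ r := by
          rintro rfl
          exact hr (Finset.mem_image_of_mem Prod.fst hi)
        simp [this]
  -- conclude
  ext ⟨r, x₀⟩
  by_contra hne
  have hne' : c (r, x₀) ≠ 0 := by simpa using hne
  let S : Finset Q := (c.support.image Prod.snd).erase x₀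
  obtain ⟨d, f, hf, hfx, hfS⟩ := exists_polyK_of_sep hpt x₀ S (by simp [S])
  have h := hmain d f hf r
  rw [Finset.sum_eq_single (r, x₀)] at h
  · simp only [if_true] at h
    exact (mul_ne_zero hne' hfx) h
  · rintro ⟨r', x⟩ hi hne2
    by_cases hr : r' = r
    · subst hr
      have hx : x ≠ x₀ := fun e => hne2 (by rw [e])
      have : f x = 0 := by
        apply hfS
        simp only [S, Finset.mem_erase, Finset.mem_image]
        exact ⟨hx, ⟨(r', x), hi, rfl⟩⟩
      simp [this]
    · simp [hr]
  · intro hnot
    simp only [Finsupp.mem_support_iff, not_not] at hnot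
    exact absurd hnot hne'

end rows

section solution

variable {K : Type} [Field K] {G : Type u} {Y : Type y} {R : Type r} [Group G]


/-- A system with independent exponent vectors over a group mapping to `K` can be solved in `K`. -/
theorem exists_solutionK (π : G →* Multiplicative K) (w : R → Monoid.Coprod G (FreeGroup Y))
    (hns : LinearIndependent K (fun r => expK K (w r))) :
    ∃ t : Y → Multiplicative K, ∀ r, theta π t (w r) = 1 := by
  classical
  let b : R → K := fun r => - Multiplicative.toAdd (theta π (1 : Y → Multiplicative K) (w r))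
  let l₀ := (Finsupp.linearCombination K b).comp hns.repr
  obtain ⟨l, hl⟩ := LinearMap.exists_extend l₀
  have hval : ∀ r, l (expK K (w r)) = b r := by
    intro r
    have hmem : expK K (w r) ∈ Submodule.span K (Set.range fun r => expK K (w r)) :=
      Submodule.subset_span ⟨r, rfl⟩
    have h1 := LinearMap.congr_fun hl ⟨_, hmem⟩
    simp only [LinearMap.comp_apply, Submodule.subtype_apply] at h1
    rw [h1]
    simp only [l₀, LinearMap.comp_apply]
    rw [hns.repr_eq_single r ⟨_, hmem⟩ rfl]
    simp
  let t : Y → Multiplicative K := fun y => Multiplicative.ofAdd (l (Finsupp.single y 1))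
  have key : ∀ z : Monoid.Coprod G (FreeGroup Y),
      Multiplicative.toAdd (theta π t z)
        = Multiplicative.toAdd (theta π (1 : Y → Multiplicative K) z) + l (expK K z) := by
    intro z
    induction z using starY_induction with
    | hinl g => simp
    | hx j => simp [t]
    | hmul u v hu hv =>
      simp only [map_mul, toAdd_mul, expK_mul, map_add, hu, hv]
      ring
    | hinv u hu =>
      simp only [map_inv, toAdd_inv, expK_inv, map_neg, hu]
      ring
  refine ⟨t, fun r => ?_⟩
  apply Multiplicative.toAdd.injective
  rw [key, hval]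
  simp [b]

/-- Polynomial functions separate the points of the additive group of `K`. -/
theorem MK_sep (x y : Multiplicative K) (h : x ≠ y) : ∃ d, ∃ f ∈ PhiK K (Multiplicative K) d, f x ≠ f y := by
  refine ⟨2, fun z => Multiplicative.toAdd z, ?_, ?_⟩
  · intro g
    have : (fun x : Multiplicative K => Multiplicative.toAdd (g * x) - Multiplicative.toAdd x)
        = fun _ => Multiplicative.toAdd g := by
      ext x
      simp
    rw [this]
    exact const_mem_PhiK _
  · exact fun e => h (Multiplicative.toAdd.injective e)

end solution

end Vale.Agent.P174.Rel.Fld
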