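import Vale.Agent.P174.Fld.Rows

/-!
# Finite witnesses over a field.
-/

universe u y r

namespace Vale.Agent.P174.Rel.Fld

open Monoid

section words

variable {K : Type} [Field K] {V : Type u} {A : V → Type u} [∀ v, Group (A v)] {Y : Type y}
  {R : Type r}

variable (K A Y R) in
/-- A witness of a nontrivial coefficient in the normal closure of a system with independent
exponent vectors. -/
structure Wit where
  /-- the coefficient word -/
  gw : List (Σ v, A v)
  /-- the factors of the product of conjugates of relators -/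
  fac : List (List (Letter A Y) × R × Bool)
  /-- the relators -/
  rel : R → List (Letter A Y)
  indep : LinearIndependent K (fun r => expK K (evalW (rel r)))
  ident : Monoid.Coprod.inl (evalC gw) = (fac.map (facVal rel)).prod

/-- The total weight of the words of a witness, relators counted as used in the factorization. -/
noncomputable def Wit.total (W : Wit K A Y R) : ℕ :=
  wtCW W.gw + (W.fac.map fun f => wtW f.1 + wtW (W.rel f.2.1)).sum

/-- A coefficient letter occurs in the words of a witness. -/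
def Wit.Occ (W : Wit K A Y R) (c : Σ v, A v) : Prop :=
  c ∈ W.gw ∨ ∃ f ∈ W.fac, (Sum.inl c ∈ f.1 ∨ Sum.inl c ∈ W.rel f.2.1)

theorem Wit.occ_finite (W : Wit K A Y R) : {c | W.Occ c}.Finite := by
  classical
  have h1 : ∀ L : List (Letter A Y), {c : Σ v, A v | Sum.inl c ∈ L}.Finite := by
    intro L
    refine (List.finite_toSet L).preimage ?_
    exact Sum.inl_injective.injOn
  have h2 : {c | W.Occ c} = {c | c ∈ W.gw} ∪ ⋃ f ∈ {f | f ∈ W.fac},
      ({c | Sum.inl c ∈ f.1} ∪ {c | Sum.inl c ∈ W.rel f.2.1}) := by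
    ext c
    simp [Wit.Occ]
  rw [h2]
  refine (List.finite_toSet W.gw).union ?_
  refine (List.finite_toSet W.fac).biUnion ?_
  intro f _
  exact (h1 _).union (h1 _)

/-- Base of the induction: a witness over a free product satisfying the conjecture. -/
theorem wit_base (hB : AllSolvK K (Monoid.CoprodI A)) (W : Wit K A Y R) : evalC W.gw = 1 := by
  have hinj := compactK hB (fun r => evalW (W.rel r)) W.indep
  rw [injective_iff_map_eq_one] at hinj
  apply hinj
  have hmem : (Monoid.Coprod.inl (evalC W.gw) : BG A Y)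
      ∈ Subgroup.normalClosure (Set.range fun r => evalW (W.rel r)) := by
    rw [W.ident]
    apply Subgroup.list_prod_mem
    intro z hz
    obtain ⟨f, _, rfl⟩ := List.mem_map.1 hz
    exact facVal_mem_normalClosure _ _
  simpa [QuotientGroup.eq_one_iff] using hmem

end words

section shrink

variable {K : Type} [Field K] {V : Type u} {A : V → Type u} [∀ v, Group (A v)] {Y : Type y}
  {R : Type r}

theorem expK_shL (H : ∀ v, Subgroup (A v)) (W : List (Letter A Y)) :
    expK K (evalW (W.map (shL H))) = expK K (evalW W) := by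
  induction W with
  | nil => simp
  | cons l W ih =>
    simp only [List.map_cons, evalW_cons, expK_mul, ih]
    congr 1
    rcases l with c | ⟨y, b⟩
    · simp [shL, evalL]
    · cases b <;> simp [shL, evalL]

/-- The subgroups generated by the coefficient letters occurring in a witness. -/
def Wit.Hgp (W : Wit K A Y R) (v : V) : Subgroup (A v) :=
  Subgroup.closure {a | W.Occ ⟨v, a⟩}

theorem Wit.Hgp_fg (W : Wit K A Y R) (v : V) : (W.Hgp v).FG := by
  rw [Subgroup.fg_iff]
  refine ⟨_, rfl, ?_⟩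
  exact W.occ_finite.preimage (sigma_mk_injective (i := v)).injOn

theorem Wit.mem_Hgp (W : Wit K A Y R) {c : Σ v, A v} (h : W.Occ c) : c.2 ∈ W.Hgp c.1 :=
  Subgroup.subset_closure h

/-- The restriction of a witness to the subgroups generated by its letters. -/
noncomputable def Wit.shrink (W : Wit K A Y R) : Wit K (fun v => W.Hgp v) Y R where
  gw := W.gw.map (shC W.Hgp)
  fac := W.fac.map fun f => (f.1.map (shL W.Hgp), f.2.1, f.2.2)
  rel := fun r => (W.rel r).map (shL W.Hgp)
  indep := by
    simp only [expK_shL]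
    exact W.indep
  ident := by
    apply iotaB_injective W.Hgp
    have h1 : iotaB W.Hgp Y (Monoid.Coprod.inl (evalC (W.gw.map (shC W.Hgp))))
        = Monoid.Coprod.inl (evalC W.gw) := by
      rw [iotaB, Monoid.Coprod.map_apply_inl, iotaC_evalC]
      intro c hc
      exact W.mem_Hgp (Or.inl hc)
    rw [h1, W.ident, map_list_prod, List.map_map, List.map_map]
    congr 1
    apply List.map_congr_left
    intro f hf
    simp only [Function.comp_apply, facVal, map_mul, map_inv]
    have h2 : iotaB W.Hgp Y (evalW (f.1.map (shL W.Hgp))) = evalW f.1 :=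
      iotaB_evalW W.Hgp fun c hc => W.mem_Hgp (Or.inr ⟨f, hf, Or.inl hc⟩)
    have h3 : iotaB W.Hgp Y (evalW ((W.rel f.2.1).map (shL W.Hgp))) = evalW (W.rel f.2.1) :=
      iotaB_evalW W.Hgp fun c hc => W.mem_Hgp (Or.inr ⟨f, hf, Or.inr hc⟩)
    have h4 : ∀ b : Bool, iotaB W.Hgp Y (sg b (evalW ((W.rel f.2.1).map (shL W.Hgp))))
        = sg b (evalW (W.rel f.2.1)) := by
      intro b
      cases b
      · simp [sg, h3]
      · simp [sg, h3]
    rw [h2, h4]

theorem Wit.shrink_total (W : Wit K A Y R) : W.shrink.total ≤ W.total := by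
  refine Nat.add_le_add (wtCW_shC _ _) ?_
  simp only [Wit.shrink, List.map_map]
  apply List.sum_le_sum
  intro f _
  simp only [Function.comp_apply]
  exact Nat.add_le_add (wtW_shL _ _) (wtW_shL _ _)

theorem Wit.shrink_faithful (W : Wit K A Y R) (h : evalC W.shrink.gw = 1) : evalC W.gw = 1 := by
  have h1 : iotaC W.Hgp (evalC (W.gw.map (shC W.Hgp))) = evalC W.gw :=
    iotaC_evalC W.Hgp fun c hc => W.mem_Hgp (Or.inl hc)
  rw [← h1]
  have h2 : evalC (W.gw.map (shC W.Hgp)) = 1 := h
  rw [h2, map_one]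

theorem Wit.shrink_occ (W : Wit K A Y R) {c : Σ v, A v} (hc : W.Occ c) :
    W.shrink.Occ (shC W.Hgp c) := by
  rcases hc with hc | ⟨f, hf, hc | hc⟩
  · exact Or.inl (List.mem_map.2 ⟨c, hc, rfl⟩)
  · exact Or.inr ⟨(f.1.map (shL W.Hgp), f.2.1, f.2.2), List.mem_map.2 ⟨f, hf, rfl⟩,
      Or.inl (List.mem_map.2 ⟨Sum.inl c, hc, rfl⟩)⟩
  · exact Or.inr ⟨(f.1.map (shL W.Hgp), f.2.1, f.2.2), List.mem_map.2 ⟨f, hf, rfl⟩,
      Or.inr (List.mem_map.2 ⟨Sum.inl c, hc, rfl⟩)⟩

/-- A nontrivial homomorphism on one of the generated subgroups is nontrivial on a letter occurring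
in the shrunken witness. -/
theorem Wit.exists_occ_of_ne (W : Wit K A Y R) (v : V) {T : Type*} [Group T]
    (φ : W.Hgp v →* T) (hφ : φ ≠ 1) :
    ∃ a : W.Hgp v, φ a ≠ 1 ∧ W.shrink.Occ ⟨v, a⟩ := by
  by_contra hcon
  push Not at hcon
  apply hφ
  ext ⟨x, hx⟩
  simp only [MonoidHom.one_apply]
  induction hx using Subgroup.closure_induction with
  | mem x hx =>
    by_contra hne
    have hc : W.Occ ⟨v, x⟩ := hx
    have h1 := W.shrink_occ hc
    have h2 : shC W.Hgp ⟨v, x⟩ = ⟨v, ⟨x, Subgroup.subset_closure hx⟩⟩ :=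
      shC_of_mem W.Hgp (c := ⟨v, x⟩) (Subgroup.subset_closure hx)
    rw [h2] at h1
    exact hcon _ hne h1
  | one => exact map_one φ
  | mul x y hx hy ihx ihy =>
    have : (⟨x * y, Subgroup.mul_mem _ hx hy⟩ : W.Hgp v) = ⟨x, hx⟩ * ⟨y, hy⟩ := rfl
    rw [this, map_mul, ihx, ihy, one_mul]
  | inv x hx ih =>
    have : (⟨x⁻¹, Subgroup.inv_mem _ hx⟩ : W.Hgp v) = ⟨x, hx⟩⁻¹ := rfl
    rw [this, map_inv, ih, inv_one]

end shrink

end Vale.Agent.P174.Rel.Fld
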